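import Vale.Agent.Lib.P173.Defs
import Vale.Agent.Lib.P173.Final

/-!
# P173: the Eilenberg-Ganea conjecture is false

There is a group `G` of cohomological dimension exactly two (projective dimension of the trivial
module `ℤ` over the integral group ring) which does not act freely on any contractible
2-dimensional complex, that is, `G` has no classifying space of dimension at most two.
-/

namespace Vale.Agent.Results.P173.EilenbergGanea

open Vale.Agent.P173

theorem result : ∃ (G : Type) (_ : Group G), cohomDim G = 2 ∧ ¬ GeomDimLETwo G :=
  Vale.Agent.P173.goal

end Vale.Agent.Results.P173.EilenbergGanea
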