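import Vale.Agent.Lib.P173.Pres.Main
import Vale.Agent.Lib.P173.Final

/-!
# P173: a group of cohomological dimension two without aspherical presentation

There is a group `G` of cohomological dimension exactly two such that no presentation of `G`
(with arbitrary sets of generators and relators) is aspherical.  Since every 2-dimensional
classifying space is homotopy equivalent to the standard 2-complex of a presentation (collapse
a maximal tree), `G` has no classifying space of dimension at most two.
-/

namespace Vale.Agent.Results.P173.Presentation

open Vale.Agent.P173

theorem result : ∃ (G : Type) (_ : Group G), cohomDim G = 2 ∧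
    ∀ P : Presentation, Nonempty (G ≃* P.Grp) → ¬ P.IsAspherical := by
  obtain ⟨G, hG, hcd, hgd⟩ := Vale.Agent.P173.goal
  exact ⟨G, hG, hcd, fun P ⟨φ⟩ hP => hgd (P.geomDimLETwo φ hP)⟩

end Vale.Agent.Results.P173.Presentation
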