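import Vale.Agent.Lib.P173.Pres.RelMod
import Vale.Agent.Lib.P173.Final

/-!
# P173: the Eilenberg-Ganea conjecture is false (relation module form)

The statement uses no definitions besides those of Mathlib.

Let `⟨S | r⟩` be a presentation of `G`: `φ : F(S) → G` is onto, `R = ker φ` is the normal closure of the
relators `r t`, `t : T`.  The group `G` acts on `R^{ab} = R / [R, R]` by conjugation with lifts
`w g ∈ F(S)` of `g ∈ G`.  The second homotopy group of the standard 2-complex of the presentation is the
kernel of `ℤG^T → R^{ab}`, `t ↦ r t`; so this complex is a classifying space of `G` iff the classes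
`g • r t` (`g ∈ G`, `t ∈ T`) are linearly independent over `ℤ` in `R^{ab}`.
-/

namespace Vale.Agent.Results.P173.RelationModule

/-- There is a group `G` of cohomological dimension exactly two such that for every presentation of `G`
(arbitrary set `S` of generators, arbitrary family `r` of relators) the translates of the relators in
the relation module `R^{ab}` are linearly dependent; that is, no standard 2-complex of a
presentation of `G` is a classifying space. -/
theorem result : ∃ (G : Type) (_ : Group G),
    CategoryTheory.projectiveDimension
      (ModuleCat.of (MonoidAlgebra ℤ G) (Representation.trivial ℤ G ℤ).asModule) = 2 ∧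
    ∀ (S T : Type) (φ : FreeGroup S →* G) (r : T → φ.ker), Function.Surjective φ →
      Subgroup.normalClosure (Set.range fun t => (r t : FreeGroup S)) = φ.ker →
      ∀ w : G → FreeGroup S, (∀ g, φ (w g) = g) →
        ¬ LinearIndependent ℤ fun p : G × T =>
          Additive.ofMul (Abelianization.of (MulAut.conjNormal (w p.1) (r p.2))) := by
  obtain ⟨G, hG, hcd, hgd⟩ := Vale.Agent.P173.goal
  refine ⟨G, hG, hcd, fun S T φ r hφ hr w hw hli => ?_⟩
  obtain ⟨P, ⟨ψ⟩, hP⟩ :=
    Vale.Agent.P173.aspherical_of_linearIndependent φ r hφ hr w hw hli
  exact hgd (P.geomDimLETwo ψ hP)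

end Vale.Agent.Results.P173.RelationModule
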